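import Mathlib.CategoryTheory.Triangulated.Triangulated
import Mathlib.CategoryTheory.Triangulated.Pretriangulated
import Mathlib.CategoryTheory.Monoidal.Braided.Basic
import Mathlib.CategoryTheory.Monoidal.Closed.Basic
import Mathlib.CategoryTheory.Monoidal.Preadditive
import Mathlib.CategoryTheory.Monoidal.Mon
import Mathlib.CategoryTheory.Limits.Shapes.Products

/-!
# P251: tensor triangulated categories and (abstract) stable homotopy categories

Frozen definitions, used by all the triangulated parts (S, M, Q, B, Z, H).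
-/

open CategoryTheory MonoidalCategory Limits Pretriangulated

universe v u

namespace Vale.Agent.P251.T

/-- A tensor triangulated category: a (pre)triangulated symmetric monoidal category in which the
shift is the tensor product (on the right) with the shifted unit `S¹`, such that `X ⊗ -` is additive
and preserves distinguished triangles, and such that the swap of `S¹ ⊗ S¹` is `-1`. -/
class TensorTriangulated (T : Type u) [Category.{v} T] [Preadditive T] [HasZeroObject T]
    [HasShift T ℤ] [∀ n : ℤ, (shiftFunctor T n).Additive] [Pretriangulated T]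
    [MonoidalCategory T] [SymmetricCategory T] extends MonoidalPreadditive T where
  /-- the natural isomorphism `Y ⊗ S¹ ≅ Y⟦1⟧` -/
  e (Y : T) : Y ⊗ ((𝟙_ T)⟦(1 : ℤ)⟧) ≅ Y⟦(1 : ℤ)⟧
  e_naturality {Y Z : T} (f : Y ⟶ Z) :
    (f ▷ ((𝟙_ T)⟦(1 : ℤ)⟧)) ≫ (e Z).hom = (e Y).hom ≫ f⟦(1 : ℤ)⟧'
  e_unit : (e (𝟙_ T)).hom = (λ_ ((𝟙_ T)⟦(1 : ℤ)⟧)).hom
  distinguished (X : T) (Δ : Triangle T) (hΔ : Δ ∈ distTriang T) :
    Triangle.mk (X ◁ Δ.mor₁) (X ◁ Δ.mor₂)
      ((X ◁ Δ.mor₃) ≫ (X ◁ (e Δ.obj₁).inv) ≫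
        (α_ X Δ.obj₁ ((𝟙_ T)⟦(1 : ℤ)⟧)).inv ≫ (e (X ⊗ Δ.obj₁)).hom) ∈ distTriang T
  sign : (β_ ((𝟙_ T)⟦(1 : ℤ)⟧) ((𝟙_ T)⟦(1 : ℤ)⟧)).hom = -𝟙 _

/-- An abstract (monogenic) stable homotopy category: a closed tensor triangulated category with
all small products and coproducts, generated by its unit, which is compact. -/
class StableCat (T : Type u) [Category.{v} T] [Preadditive T] [HasZeroObject T]
    [HasShift T ℤ] [∀ n : ℤ, (shiftFunctor T n).Additive] [Pretriangulated T] [IsTriangulated T]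
    [MonoidalCategory T] [SymmetricCategory T] [TensorTriangulated T] [MonoidalClosed T]
    [HasCoproducts.{0} T] [HasProducts.{0} T] : Prop where
  /-- the unit is compact: a map `S⟦n⟧ ⟶ ∐ X` factors through a finite subcoproduct -/
  compact (n : ℤ) {I : Type} (X : I → T) (f : (𝟙_ T)⟦n⟧ ⟶ ∐ X) :
    ∃ (s : Finset I) (g : (𝟙_ T)⟦n⟧ ⟶ ∐ (fun i : s => X i)),
      g ≫ Sigma.desc (fun i : s => Sigma.ι X i) = f
  /-- the unit generates -/
  generator (X : T) (h : ∀ (n : ℤ) (f : (𝟙_ T)⟦n⟧ ⟶ X), f = 0) : IsZero X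

end Vale.Agent.P251.T
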